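import Vale.Agent.P050.Final

namespace Vale.Agent.Results.P050.Counterexample

/-- Sidorenko's conjecture fails: a finite bipartite graph `H` with an edge and a finite nonempty
graph `G` with `t(H,G) < p(G) ^ |E(H)|`. -/
theorem result : ∃ (α β : Type) (_ : Fintype α) (_ : Fintype β) (H : SimpleGraph α)
    (G : SimpleGraph β), H.IsBipartite ∧ H.edgeSet.Nonempty ∧ Nonempty β ∧
      (Nat.card (H →g G) : ℝ) / (Fintype.card β : ℝ) ^ Fintype.card α <
        (2 * (Nat.card G.edgeSet : ℝ) / (Fintype.card β : ℝ) ^ 2) ^ Nat.card H.edgeSet :=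
  Vale.Agent.P050.main

end Vale.Agent.Results.P050.Counterexample
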